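import Vale.Agent.P033.EvenCase

open Polynomial

namespace Vale.Agent.P033

lemma zpow_emod_eq {z : ℂ} {n : ℕ} (hn : 0 < n) (hz : z ^ n = 1) (a : ℤ) :
    z ^ (a % (n : ℤ)) = z ^ a := by
  have h0 : z ≠ 0 := by
    intro h0
    rw [h0, zero_pow hn.ne'] at hz
    exact zero_ne_one hz
  conv_rhs => rw [← Int.emod_add_mul_ediv a n, zpow_add₀ h0, zpow_mul, zpow_natCast, hz, one_zpow,
    mul_one]

theorem circulant_hadamard {n : ℕ} (hn : 1 ≤ n) (H : Matrix (Fin n) (Fin n) ℝ) (h : ℤ → ℝ)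
    (hent : ∀ i j, H i j = 1 ∨ H i j = -1)
    (hcirc : ∀ i j : Fin n, H i j = h (((j : ℤ) - (i : ℤ)) % (n : ℤ)))
    (hHad : H * H.transpose = (n : ℝ) • (1 : Matrix (Fin n) (Fin n) ℝ)) : n = 1 ∨ n = 4 := by
  classical
  have hn0 : 0 < n := hn
  have : NeZero n := ⟨hn0.ne'⟩
  have hc : ∀ i j : Fin n, H i j = H 0 (j - i) := by
    intro i j
    rw [hcirc, hcirc, Fin.coe_int_sub_eq_mod]
    simp
  let D : ℤ[X] := ∑ t : Fin n, C (if H 0 t = 1 then 0 else 1) * X ^ (t : ℕ)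
  have hev : ∀ z : ℂ, aeval z (JJ n - 2 * D) = ∑ t : Fin n, (H 0 t : ℂ) * z ^ (t : ℕ) := by
    intro z
    simp only [JJ, D, map_sub, map_mul, map_sum, map_pow, aeval_X, aeval_C, map_ofNat,
      Finset.sum_range, Finset.mul_sum, ← Finset.sum_sub_distrib]
    refine Finset.sum_congr rfl fun t _ => ?_
    rcases hent 0 t with h1 | h1
    · simp [h1]
    · have : ¬ ((-1 : ℝ) = 1) := by norm_num
      simp [h1, this]
      ring
  have hrow : ∀ z : ℂ, z ^ n = 1 → ∀ k : Fin n, ∑ i : Fin n, z ^ (i : ℕ) * (H i k : ℂ) =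
      z ^ (k : ℕ) * ∑ t : Fin n, (H 0 t : ℂ) * z⁻¹ ^ (t : ℕ) := by
    intro z hz k
    have h0 : z ≠ 0 := by
      intro h0
      rw [h0, zero_pow hn0.ne'] at hz
      exact zero_ne_one hz
    rw [Finset.mul_sum, ← Equiv.sum_comp (Equiv.subLeft k)]
    refine Finset.sum_congr rfl fun t _ => ?_
    rw [Equiv.subLeft_apply, hc, sub_sub_cancel, ← zpow_natCast z, Fin.coe_int_sub_eq_mod,
      zpow_emod_eq hn0 hz, zpow_sub₀ h0, zpow_natCast, zpow_natCast, inv_pow]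
    ring
  refine flat_main hn0 (D := D) fun z hz => ?_
  have h0 : z ≠ 0 := by
    intro h0
    rw [h0, zero_pow hn0.ne'] at hz
    exact zero_ne_one hz
  have hz' : z⁻¹ ^ n = 1 := by rw [inv_pow, hz, inv_one]
  have hHH : ∀ i j : Fin n, ∑ k : Fin n, (H i k : ℂ) * (H j k : ℂ) = if i = j then (n : ℂ) else 0 := by
    intro i j
    have := congrFun (congrFun hHad i) j
    simp only [Matrix.mul_apply, Matrix.transpose_apply, Matrix.smul_apply, Matrix.one_apply,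
      smul_eq_mul, mul_ite, mul_one, mul_zero] at this
    have h2 := congrArg (fun x : ℝ => (x : ℂ)) this
    simp only [Complex.ofReal_sum, Complex.ofReal_mul] at h2
    rw [h2]
    split_ifs <;> simp
  have e1 : ∑ k : Fin n, (∑ i : Fin n, z ^ (i : ℕ) * (H i k : ℂ)) *
      (∑ j : Fin n, z⁻¹ ^ (j : ℕ) * (H j k : ℂ)) = n * n := by
    simp only [Finset.sum_mul_sum]
    rw [Finset.sum_comm]
    have : ∀ i : Fin n, ∑ k : Fin n, ∑ j : Fin n,
        z ^ (i : ℕ) * (H i k : ℂ) * (z⁻¹ ^ (j : ℕ) * (H j k : ℂ)) = n := by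
      intro i
      rw [Finset.sum_comm]
      have e : ∀ j : Fin n, ∑ k : Fin n, z ^ (i : ℕ) * (H i k : ℂ) * (z⁻¹ ^ (j : ℕ) * (H j k : ℂ)) =
          z ^ (i : ℕ) * z⁻¹ ^ (j : ℕ) * if i = j then (n : ℂ) else 0 := by
        intro j
        rw [← hHH, Finset.mul_sum]
        refine Finset.sum_congr rfl fun k _ => by ring
      rw [Finset.sum_congr rfl fun j _ => e j]
      simp [h0]
    rw [Finset.sum_congr rfl fun i _ => this i]
    simp
  rw [Finset.sum_congr rfl fun k _ => by rw [hrow z hz k, hrow z⁻¹ hz' k]] at e1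
  rw [hev, hev]
  have e2 : ∀ k : Fin n, (z ^ (k : ℕ) * ∑ t : Fin n, (H 0 t : ℂ) * z⁻¹ ^ (t : ℕ)) *
      (z⁻¹ ^ (k : ℕ) * ∑ t : Fin n, (H 0 t : ℂ) * z⁻¹⁻¹ ^ (t : ℕ)) =
      (∑ t : Fin n, (H 0 t : ℂ) * z ^ (t : ℕ)) * ∑ t : Fin n, (H 0 t : ℂ) * z⁻¹ ^ (t : ℕ) := by
    intro k
    have : z ^ (k : ℕ) * z⁻¹ ^ (k : ℕ) = 1 := by rw [← mul_pow, mul_inv_cancel₀ h0, one_pow]
    rw [inv_inv]
    linear_combination ((∑ t : Fin n, (H 0 t : ℂ) * z ^ (t : ℕ)) *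
      ∑ t : Fin n, (H 0 t : ℂ) * z⁻¹ ^ (t : ℕ)) * this
  rw [Finset.sum_congr rfl fun k _ => e2 k] at e1
  simp only [Finset.sum_const, Finset.card_univ, Fintype.card_fin, nsmul_eq_mul] at e1
  exact mul_left_cancel₀ (by exact_mod_cast hn0.ne' : (n : ℂ) ≠ 0) e1

theorem exists_one : ∃ (H : Matrix (Fin 1) (Fin 1) ℝ) (h : ℤ → ℝ),
    (∀ i j, H i j = 1 ∨ H i j = -1) ∧
    (∀ i j : Fin 1, H i j = h (((j : ℤ) - (i : ℤ)) % ((1 : ℕ) : ℤ))) ∧
    H * H.transpose = ((1 : ℕ) : ℝ) • (1 : Matrix (Fin 1) (Fin 1) ℝ) := by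
  refine ⟨1, fun _ => 1, ?_, ?_, by simp⟩
  · intro i j
    fin_cases i
    fin_cases j
    simp
  · intro i j
    fin_cases i
    fin_cases j
    simp

theorem exists_four : ∃ (H : Matrix (Fin 4) (Fin 4) ℝ) (h : ℤ → ℝ),
    (∀ i j, H i j = 1 ∨ H i j = -1) ∧
    (∀ i j : Fin 4, H i j = h (((j : ℤ) - (i : ℤ)) % ((4 : ℕ) : ℤ))) ∧
    H * H.transpose = ((4 : ℕ) : ℝ) • (1 : Matrix (Fin 4) (Fin 4) ℝ) := by
  refine ⟨!![1, 1, 1, -1; -1, 1, 1, 1; 1, -1, 1, 1; 1, 1, -1, 1],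
    fun k => if k = 3 then -1 else 1, ?_, ?_, ?_⟩
  · intro i j
    fin_cases i <;> fin_cases j <;> simp
  · intro i j
    fin_cases i <;> fin_cases j <;> simp
  · ext i j
    fin_cases i <;> fin_cases j <;> simp [Matrix.mul_apply, Fin.sum_univ_four] <;> norm_num

end Vale.Agent.P033
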