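import Vale.Agent.P033.OddCase

open Polynomial

namespace Vale.Agent.P033

lemma parseval {N : ℕ} (hN : 0 < N) (a : ℕ → ℤ) (m : ℕ)
    (h : ∀ z : ℂ, z ^ N = 1 → (∑ i ∈ Finset.range N, (a i : ℂ) * z ^ i) *
      (∑ i ∈ Finset.range N, (a i : ℂ) * z⁻¹ ^ i) = m) :
    ∑ i ∈ Finset.range N, a i ^ 2 = m := by
  obtain ⟨ω, hω⟩ : ∃ ω : ℂ, IsPrimitiveRoot ω N := ⟨_, Complex.isPrimitiveRoot_exp N hN.ne'⟩
  have hω0 : ω ≠ 0 := hω.ne_zero hN.ne'
  have h1 : ∑ k ∈ Finset.range N, (∑ i ∈ Finset.range N, (a i : ℂ) * (ω ^ k) ^ i) *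
      (∑ i ∈ Finset.range N, (a i : ℂ) * (ω ^ k)⁻¹ ^ i) = N * m := by
    rw [Finset.sum_congr rfl fun k _ => h (ω ^ k) (by
      rw [← pow_mul, mul_comm, pow_mul, hω.pow_eq_one, one_pow])]
    simp
  have h2 : ∀ i ∈ Finset.range N, ∀ j ∈ Finset.range N,
      ∑ k ∈ Finset.range N, ((a i : ℂ) * (ω ^ k) ^ i) * ((a j : ℂ) * (ω ^ k)⁻¹ ^ j) =
        if i = j then (N : ℂ) * (a i : ℂ) ^ 2 else 0 := by
    intro i hi j hj
    have e1 : ∀ k : ℕ, ((a i : ℂ) * (ω ^ k) ^ i) * ((a j : ℂ) * (ω ^ k)⁻¹ ^ j) =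
        (a i : ℂ) * (a j : ℂ) * (ω ^ i * (ω ^ j)⁻¹) ^ k := by
      intro k
      rw [mul_pow, inv_pow, inv_pow, ← pow_mul, ← pow_mul, ← pow_mul, ← pow_mul, mul_comm k i,
        mul_comm k j]
      ring
    rw [Finset.sum_congr rfl fun k _ => e1 k, ← Finset.mul_sum]
    split_ifs with hij
    · subst hij
      rw [mul_inv_cancel₀ (pow_ne_zero _ hω0)]
      simp
      ring
    · have e2 : (ω ^ i * (ω ^ j)⁻¹) ^ N = 1 := by
        rw [mul_pow, inv_pow, ← pow_mul, ← pow_mul, mul_comm i, mul_comm j, pow_mul, pow_mul,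
          hω.pow_eq_one]
        simp
      have e3 : ω ^ i * (ω ^ j)⁻¹ ≠ 1 := by
        intro hh
        rw [mul_inv_eq_one₀ (pow_ne_zero _ hω0)] at hh
        exact hij (hω.pow_inj (Finset.mem_range.1 hi) (Finset.mem_range.1 hj) hh)
      have e4 := JJ_ne_one e2 e3
      simp only [JJ, map_sum, map_pow, aeval_X] at e4
      rw [e4, mul_zero]
  simp only [Finset.sum_mul_sum] at h1
  rw [Finset.sum_comm] at h1
  have h3 : ∑ i ∈ Finset.range N, (N : ℂ) * (a i : ℂ) ^ 2 = N * m := by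
    rw [← h1]
    refine Finset.sum_congr rfl fun i hi => ?_
    rw [Finset.sum_comm, Finset.sum_congr rfl fun j hj => h2 i hi j hj]
    simp [hi]
  rw [← Finset.mul_sum] at h3
  have h4 := mul_left_cancel₀ (by exact_mod_cast hN.ne' : (N : ℂ) ≠ 0) h3
  exact_mod_cast h4

lemma even_base {t w : ℕ} (hw : Odd w) {d : ℤ[X]}
    (h : Flat (2 ^ (t + 3)) (JJ (2 ^ (t + 3)) - 2 * d) (4 * w ^ 2)) : False := by
  set N := 2 ^ (t + 3) with hNdef
  have hN : 0 < N := by positivity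
  have hm : (X ^ N - 1 : ℤ[X]).Monic := by
    simpa using monic_X_pow_sub_C (1 : ℤ) hN.ne'
  have hdeg : (X ^ N - 1 : ℤ[X]).natDegree = N := by
    simpa using natDegree_X_pow_sub_C (R := ℤ) (n := N) (r := 1)
  have hne : (X ^ N - 1 : ℤ[X]) ≠ 1 := by
    intro h1
    rw [h1, natDegree_one] at hdeg
    omega
  have hlt := natDegree_modByMonic_lt d hm hne
  rw [hdeg] at hlt
  set d0 := d %ₘ (X ^ N - 1) with hd0
  have hev : ∀ z : ℂ, z ^ N = 1 → aeval z (JJ N - 2 * d) =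
      ∑ i ∈ Finset.range N, ((1 - 2 * d0.coeff i : ℤ) : ℂ) * z ^ i := by
    intro z hz
    have e1 : aeval z d = aeval z d0 := by
      have := congrArg (aeval z) (modByMonic_add_div d (X ^ N - 1))
      simpa [hz] using this.symm
    rw [map_sub, map_mul, e1, aeval_eq_sum_range' hlt]
    simp only [JJ, map_sum, map_pow, aeval_X, map_ofNat, Finset.mul_sum, ← Finset.sum_sub_distrib,
      zsmul_eq_mul]
    refine Finset.sum_congr rfl fun i _ => ?_
    push_cast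
    ring
  have hP := parseval hN (fun i => 1 - 2 * d0.coeff i) (4 * w ^ 2) (by
    intro z hz
    rw [← hev z hz, ← hev z⁻¹ (by rw [inv_pow, hz, inv_one])]
    exact h z hz)
  have h8 : (8 : ℤ) ∣ ∑ i ∈ Finset.range N, ((1 - 2 * d0.coeff i) ^ 2 - 1) := by
    refine Finset.dvd_sum fun i _ => ?_
    obtain ⟨k, hk⟩ := Int.even_mul_pred_self (d0.coeff i)
    exact ⟨k, by linear_combination 4 * hk⟩
  rw [Finset.sum_sub_distrib, hP] at h8
  simp only [Finset.sum_const, Finset.card_range, nsmul_eq_mul, mul_one, hNdef] at h8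
  obtain ⟨s, rfl⟩ := hw
  obtain ⟨k, hk⟩ := h8
  push_cast at hk
  have : (4 : ℤ) = 8 * (k + 2 ^ t - 2 * s ^ 2 - 2 * s) := by linear_combination hk
  omega

lemma mult_lemma {M L : ℕ} (hL : Odd L) (f : (ZMod 2)[X])
    (h : (X - C 1) ^ (2 * M) ∣ f * f.comp (X ^ L)) : (X - C 1) ^ M ∣ f := by
  by_cases hf : f = 0
  · rw [hf]; exact dvd_zero _
  obtain ⟨q, hq, hq1⟩ := exists_eq_pow_rootMultiplicity_mul_and_not_dvd f hf 1
  set κ := rootMultiplicity 1 f
  by_cases hκ : M ≤ κ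
  · rw [hq]
    exact (pow_dvd_pow _ hκ).mul_right q
  exfalso
  have e1 : (X ^ L - C 1 : (ZMod 2)[X]) = (X - C 1) * ∑ i ∈ Finset.range L, X ^ i := by
    rw [C_1, mul_geom_sum]
  have e2 : f * f.comp (X ^ L) =
      (X - C 1) ^ (2 * κ) * (q * (∑ i ∈ Finset.range L, X ^ i) ^ κ * q.comp (X ^ L)) := by
    conv_lhs => rw [hq]
    rw [mul_comp, pow_comp, sub_comp, X_comp, C_comp, e1, mul_pow]
    ring
  have e3 : (X - C 1 : (ZMod 2)[X]) ^ (2 * κ) * (X - C 1) ∣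
      (X - C 1) ^ (2 * κ) * (q * (∑ i ∈ Finset.range L, X ^ i) ^ κ * q.comp (X ^ L)) := by
    rw [← e2, ← pow_succ]
    exact (pow_dvd_pow _ (by omega)).trans h
  rw [mul_dvd_mul_iff_left (pow_ne_zero _ (X_sub_C_ne_zero 1)), dvd_iff_isRoot] at e3
  rw [dvd_iff_isRoot] at hq1
  have e4 : (L : ZMod 2) = 1 := by
    obtain ⟨s, rfl⟩ := hL
    push_cast
    have : (2 : ZMod 2) = 0 := rfl
    rw [this]
    ring
  simp only [IsRoot.def, eval_mul, eval_pow, eval_comp, eval_X, one_pow, eval_finsetSum,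
    Finset.sum_const, Finset.card_range, nsmul_eq_mul, mul_one, e4] at e3 hq1
  exact hq1 (mul_self_eq_zero.1 e3)

lemma even_step {t j w : ℕ} {d : ℤ[X]}
    (h : Flat (2 ^ (t + 3)) (JJ (2 ^ (t + 3)) - 2 * d) (4 ^ (j + 2) * w ^ 2)) :
    ∃ d' : ℤ[X], Flat (2 ^ (t + 2)) (JJ (2 ^ (t + 2)) - 2 * d') (4 ^ (j + 1) * w ^ 2) := by
  set N := 2 ^ (t + 3) with hNdef
  set M := 2 ^ (t + 2) with hMdef
  have hN : 0 < N := by positivity
  have hNM : N = 2 * M := by rw [hNdef, hMdef]; ring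
  have hd1 : aeval (1 : ℂ) d = ((d.eval 1 : ℤ) : ℂ) := by
    have := aeval_algebraMap_apply_eq_algebraMap_eval (A := ℂ) (1 : ℤ) d
    simpa using this
  have h1 : ((N : ℤ) - 2 * d.eval 1) ^ 2 = (2 ^ (j + 2) * w) ^ 2 := by
    have := h 1 (one_pow _)
    rw [inv_one, map_sub, JJ_one, map_mul, hd1] at this
    simp only [map_ofNat] at this
    have e : (4 : ℂ) ^ (j + 2) = (2 ^ (j + 2)) ^ 2 := by
      rw [← pow_mul, mul_comm, pow_mul]; norm_num
    push_cast at this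
    rw [e] at this
    have e2 : ((N : ℂ) - 2 * (d.eval 1 : ℤ)) ^ 2 = (2 ^ (j + 2) * w) ^ 2 := by
      linear_combination this
    exact_mod_cast e2
  obtain ⟨a4, ha4⟩ : ∃ a4 : ℤ, (N : ℤ) - 2 * d.eval 1 = 4 * a4 := by
    rcases sq_eq_sq_iff_eq_or_eq_neg.1 h1 with h2 | h2
    · exact ⟨2 ^ j * w, by rw [h2]; ring⟩
    · exact ⟨-(2 ^ j * w), by rw [h2]; ring⟩
  obtain ⟨R, hR⟩ := dvd_of_vanish hN (d * d.comp (X ^ (N - 1)) -
      2 * (C (2 * 4 ^ j * w ^ 2 : ℤ) + C (2 ^ t - a4 : ℤ) * JJ N)) (by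
    intro z hz
    have e1 : z ^ (N - 1) = z⁻¹ := by
      obtain ⟨k, hk⟩ : ∃ k, N = k + 1 := ⟨N - 1, by omega⟩
      rw [hk, Nat.add_sub_cancel]
      rw [hk, pow_succ] at hz
      exact (eq_inv_of_mul_eq_one_left hz)
    have h2 := h z hz
    simp only [map_sub, map_mul, map_add, aeval_comp, map_pow, aeval_X, e1, map_ofNat,
      eq_intCast, map_natCast, map_intCast] at h2 ⊢
    by_cases hz1 : z = 1
    · subst hz1
      rw [inv_one, JJ_one, hd1] at *
      have e2 : ((N : ℂ)) - 2 * (d.eval 1 : ℤ) = 4 * a4 := by exact_mod_cast ha4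
      have e3 : (N : ℂ) = 8 * 2 ^ t := by rw [hNdef]; push_cast; ring
      push_cast at h2 ⊢
      linear_combination h2 / 4 - ((N : ℂ) / 2) * e2 + ((N : ℂ) / 4) * e3
    · rw [JJ_ne_one hz hz1, JJ_ne_one (by rw [inv_pow, hz, inv_one]) (by rwa [Ne, inv_eq_one])] at *
      push_cast at h2 ⊢
      linear_combination h2 / 4)
  let ρ := Int.castRingHom (ZMod 2)
  have h2 : (d.map ρ) * (d.map ρ).comp (X ^ (N - 1)) = (X ^ N - 1) * R.map ρ := by
    have := congrArg (Polynomial.map ρ) hR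
    have e : (2 : (ZMod 2)[X]) = 0 := by
      have := CharP.cast_eq_zero (ZMod 2)[X] 2
      simpa using this
    simpa [map_comp, e] using this
  have h3 : ∀ s : ℕ, (X ^ (2 ^ s) - 1 : (ZMod 2)[X]) = (X - C 1) ^ (2 ^ s) := by
    intro s
    rw [sub_pow_char_pow, C_1, one_pow]
  have hL : Odd (N - 1) := by
    rw [hNM]
    exact Nat.Even.sub_odd (by omega) (even_two_mul M) odd_one
  have h4 : (X - C 1) ^ M ∣ d.map ρ := by
    refine mult_lemma hL _ ?_
    rw [h2, ← hNM, hNdef, h3]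
    exact Dvd.intro _ rfl
  rw [hMdef, ← h3, ← hMdef] at h4
  obtain ⟨e', he'⟩ := h4
  obtain ⟨e, rfl⟩ := map_surjective ρ (ZMod.ringHom_surjective ρ) e'
  obtain ⟨d2, hd2⟩ : C (2 : ℤ) ∣ d - (X ^ M - 1) * e := by
    rw [C_dvd_iff_dvd_coeff]
    intro i
    have : (d - (X ^ M - 1) * e).map ρ = 0 := by
      simp [he']
    have h5 := congrArg (fun p => coeff p i) this
    simp only [coeff_map, coeff_zero] at h5
    exact (ZMod.intCast_zmod_eq_zero_iff_dvd _ 2).1 h5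
  refine ⟨d2, fun z hz => ?_⟩
  have hev : ∀ y : ℂ, y ^ M = 1 → aeval y (JJ N - 2 * d) = 2 * aeval y (JJ M - 2 * d2) := by
    intro y hy
    have hyN : y ^ N = 1 := by rw [hNM, mul_comm, pow_mul, hy, one_pow]
    have e1 : aeval y d = 2 * aeval y d2 := by
      have := congrArg (aeval y) hd2
      simpa [hy, map_ofNat] using this
    have e2 : aeval y (JJ N) = 2 * aeval y (JJ M) := by
      by_cases hy1 : y = 1
      · rw [hy1, JJ_one, JJ_one, hNM]; push_cast; ring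
      · rw [JJ_ne_one hyN hy1, JJ_ne_one hy hy1, mul_zero]
    simp only [map_sub, map_mul, map_ofNat, e1, e2]
    ring
  have h5 := h z (by rw [hNM, mul_comm, pow_mul, hz, one_pow])
  rw [hev z hz, hev z⁻¹ (by rw [inv_pow, hz, inv_one])] at h5
  push_cast at h5 ⊢
  linear_combination h5 / 4

lemma even_ind {w : ℕ} (hw : Odd w) (j : ℕ) : ∀ (t : ℕ) (d : ℤ[X]),
    ¬ Flat (2 ^ (t + j + 3)) (JJ (2 ^ (t + j + 3)) - 2 * d) (4 ^ (j + 1) * w ^ 2) := by
  induction j with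
  | zero =>
    intro t d h
    exact even_base hw (t := t) (d := d) (by simpa using h)
  | succ j ih =>
    intro t d h
    obtain ⟨d', hd'⟩ := even_step (t := t + j + 1) (j := j) (w := w) (d := d) h
    exact ih t d' hd'

/-- Turyn's theorem: the case `16 ∣ n`. -/
theorem even_case {b w : ℕ} (hw : Odd w) {D : ℤ[X]}
    (h : Flat (4 ^ (b + 2) * w ^ 2) (JJ (4 ^ (b + 2) * w ^ 2) - 2 * D) (4 ^ (b + 2) * w ^ 2)) :
    False := by
  obtain ⟨s, hs⟩ := hw
  have hN : 2 ^ (b + (b + 1) + 3) = 4 ^ (b + 2) := by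
    rw [show (4 : ℕ) = 2 ^ 2 from rfl, ← pow_mul]
    congr 1
    ring
  refine even_ind ⟨s, hs⟩ (b + 1) b (D - C (2 * s ^ 2 + 2 * s : ℤ) * JJ (4 ^ (b + 2))) ?_
  rw [hN]
  have hev : ∀ y : ℂ, y ^ (4 ^ (b + 2)) = 1 →
      aeval y (JJ (4 ^ (b + 2)) - 2 * (D - C (2 * s ^ 2 + 2 * s : ℤ) * JJ (4 ^ (b + 2)))) =
        aeval y (JJ (4 ^ (b + 2) * w ^ 2) - 2 * D) := by
    intro y hy
    have hyn : y ^ (4 ^ (b + 2) * w ^ 2) = 1 := by rw [pow_mul, hy, one_pow]
    simp only [map_sub, map_mul, map_ofNat, map_add, map_pow, map_natCast]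
    by_cases hy1 : y = 1
    · rw [hy1, JJ_one, JJ_one, hs]; push_cast; ring
    · rw [JJ_ne_one hyn hy1, JJ_ne_one hy hy1]; ring
  intro z hz
  rw [hev z hz, hev z⁻¹ (by rw [inv_pow, hz, inv_one])]
  exact h z (by rw [pow_mul, hz, one_pow])

theorem flat_main {n : ℕ} (hn : 0 < n) {D : ℤ[X]} (h : Flat n (JJ n - 2 * D) n) :
    n = 1 ∨ n = 4 := by
  have hd1 : aeval (1 : ℂ) D = ((D.eval 1 : ℤ) : ℂ) := by
    have := aeval_algebraMap_apply_eq_algebraMap_eval (A := ℂ) (1 : ℤ) D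
    simpa using this
  have h1 : ((n : ℤ) - 2 * D.eval 1) ^ 2 = n := by
    have := h 1 (one_pow _)
    rw [inv_one, map_sub, JJ_one, map_mul, hd1] at this
    simp only [map_ofNat] at this
    have e2 : ((n : ℂ) - 2 * (D.eval 1 : ℤ)) ^ 2 = n := by linear_combination this
    exact_mod_cast e2
  obtain ⟨r, hr⟩ : ∃ r : ℕ, n = r ^ 2 := by
    refine ⟨((n : ℤ) - 2 * D.eval 1).natAbs, ?_⟩
    have := congrArg Int.natAbs h1
    rw [Int.natAbs_pow, Int.natAbs_natCast] at this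
    exact this.symm
  have hr0 : r ≠ 0 := by rintro rfl; simp at hr; omega
  obtain ⟨b, w, hw, hbw⟩ := Nat.exists_eq_two_pow_mul_odd hr0
  have hn' : n = 4 ^ b * w ^ 2 := by
    rw [hr, hbw, mul_pow, ← pow_mul, mul_comm b 2, pow_mul]
    norm_num
  match b, hn' with
  | 0, hn' =>
    left
    by_contra hne
    have hodd : Odd n := by rw [hn', pow_zero, one_mul]; exact hw.pow
    obtain ⟨ω, hω⟩ : ∃ ω : ℂ, IsPrimitiveRoot ω n := ⟨_, Complex.isPrimitiveRoot_exp n hn.ne'⟩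
    have hω1 : ω ≠ 1 := hω.ne_one (by omega)
    have hω' : ω⁻¹ ^ n = 1 := by rw [inv_pow, hω.pow_eq_one, inv_one]
    have h2 := h ω hω.pow_eq_one
    simp only [map_sub, map_mul, map_ofNat] at h2
    rw [JJ_ne_one hω.pow_eq_one hω1, JJ_ne_one hω' (by rwa [Ne, inv_eq_one])] at h2
    obtain ⟨W, hW⟩ := exists_val 2 Nat.prime_two
    have hW' : W.valuation (2 : ℂ) < 1 := by simpa using hW
    have h3 := val_u_of_two hodd hW'
    have h4 : (n : ℂ) = (2 * (aeval ω D * aeval ω⁻¹ D)) * 2 := by linear_combination -h2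
    have h5 := val_mul_lt (W.mul_mem _ _ two_mem (W.mul_mem _ _
      (aeval_mem (root_mem hn hω.pow_eq_one) D) (aeval_mem (root_mem hn hω') D))) hW'
    rw [← h4, h3] at h5
    exact lt_irrefl _ h5
  | 1, hn' =>
    right
    by_contra hne
    rw [pow_one] at hn'
    have hw1 : 1 < w := by
      by_contra hc
      have : w = 1 := by have := hw.pos; omega
      rw [this] at hn'
      exact hne hn'
    rw [hn'] at h
    exact odd_case hw hw1 h
  | b + 2, hn' =>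
    rw [hn'] at h
    exact (even_case hw h).elim

end Vale.Agent.P033
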