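import Vale.Agent.P033.Val

open Polynomial

namespace Vale.Agent.P033

/-- The all-ones polynomial. -/
noncomputable def JJ (N : ℕ) : ℤ[X] := ∑ i ∈ Finset.range N, X ^ i

/-- `|H(z)|^2 = m` at all complex `N`-th roots of unity. -/
def Flat (N : ℕ) (H : ℤ[X]) (m : ℕ) : Prop :=
  ∀ z : ℂ, z ^ N = 1 → aeval z H * aeval z⁻¹ H = m

lemma JJ_one (N : ℕ) : aeval (1 : ℂ) (JJ N) = N := by simp [JJ]

lemma JJ_ne_one {N : ℕ} {z : ℂ} (hz : z ^ N = 1) (h1 : z ≠ 1) : aeval z (JJ N) = 0 := by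
  have := mul_geom_sum z N
  rw [hz, sub_self] at this
  have h0 := (mul_eq_zero.1 this).resolve_left (sub_ne_zero.2 h1)
  simpa [JJ] using h0

lemma Flat.exists_poly {N m : ℕ} {H : ℤ[X]} (hN : 0 < N) (h : Flat N H m) :
    ∃ R : ℤ[X], H * H.comp (X ^ (N - 1)) = C (m : ℤ) + (X ^ N - 1) * R := by
  obtain ⟨R, hR⟩ := dvd_of_vanish hN (H * H.comp (X ^ (N - 1)) - C (m : ℤ)) (by
    intro z hz
    have h1 : z ^ (N - 1) = z⁻¹ := by
      obtain ⟨k, rfl⟩ : ∃ k, N = k + 1 := ⟨N - 1, by omega⟩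
      rw [Nat.add_sub_cancel]
      rw [pow_succ] at hz
      exact (eq_inv_of_mul_eq_one_left hz)
    have h2 := h z hz
    simp only [map_sub, map_mul, aeval_comp, map_pow, aeval_X, h1, h2]
    simp)
  exact ⟨R, by linear_combination hR⟩

lemma Flat.ne_zero {N m : ℕ} {H : ℤ[X]} (h : Flat N H m) (hm : m ≠ 0) {z : ℂ} (hz : z ^ N = 1) :
    aeval z H ≠ 0 := by
  intro h0
  have := h z hz
  rw [h0, zero_mul] at this
  exact hm (by exact_mod_cast this.symm)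

lemma Flat.norm_sq {N m : ℕ} {H : ℤ[X]} (hN : 0 < N) (h : Flat N H m) {z : ℂ} (hz : z ^ N = 1) :
    ‖aeval z H‖ ^ 2 = m := by
  have h1 : ‖z‖ = 1 := Complex.norm_eq_one_of_pow_eq_one hz hN.ne'
  have h2 : z⁻¹ = (starRingEnd ℂ) z := by
    rw [Complex.inv_def, Complex.normSq_eq_norm_sq, h1]
    simp
  have h3 : aeval ((starRingEnd ℂ) z) H = (starRingEnd ℂ) (aeval z H) :=
    aeval_algHom_apply (starRingEnd ℂ).toIntAlgHom z H
  have h4 := h z hz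
  rw [h2, h3, Complex.mul_conj, Complex.normSq_eq_norm_sq] at h4
  exact_mod_cast h4

/-- The alternating product. -/
noncomputable def EE {F : Type*} [Field F] (H : ℤ[X]) (π : Finset ℕ) (ζ : ℕ → F) (θ : F) : F :=
  ∏ S ∈ π.powerset,
    (aeval (θ * ∏ q ∈ S, ζ q) H / aeval (∏ q ∈ S, ζ q) H) ^ ((-1 : ℤ) ^ S.card)

lemma EE_map {F F' : Type*} [Field F] [Field F'] (φ : F →+* F') (H : ℤ[X]) (π : Finset ℕ)
    (ζ : ℕ → F) (θ : F) : φ (EE H π ζ θ) = EE H π (fun q => φ (ζ q)) (φ θ) := by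
  have h : ∀ x : F, φ (aeval x H) = aeval (φ x) H := fun x =>
    (aeval_algHom_apply φ.toIntAlgHom x H).symm
  simp only [EE, map_prod, map_zpow₀, map_div₀, h, map_mul]

lemma prod_pow_eq_one {n : ℕ} {π : Finset ℕ} {ζ : ℕ → ℂ} (hζ : ∀ q ∈ π, ζ q ^ n = 1)
    {S : Finset ℕ} (hS : S ⊆ π) : (∏ q ∈ S, ζ q) ^ n = 1 := by
  rw [← Finset.prod_pow]
  exact Finset.prod_eq_one fun q hq => hζ q (hS hq)

lemma EE_norm {n : ℕ} {H : ℤ[X]} (hn : 0 < n) (h : Flat n H n) {π : Finset ℕ} {ζ : ℕ → ℂ}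
    (hζ : ∀ q ∈ π, ζ q ^ n = 1) {θ : ℂ} (hθ : θ ^ n = 1) : ‖EE H π ζ θ‖ = 1 := by
  rw [EE, norm_prod]
  refine Finset.prod_eq_one fun S hS => ?_
  have h1 := prod_pow_eq_one hζ (Finset.mem_powerset.1 hS)
  have h2 : (θ * ∏ q ∈ S, ζ q) ^ n = 1 := by rw [mul_pow, hθ, h1, one_mul]
  have h3 := h.norm_sq hn h1
  have h4 := h.norm_sq hn h2
  have h5 : ‖aeval (θ * ∏ q ∈ S, ζ q) H‖ = ‖aeval (∏ q ∈ S, ζ q) H‖ := by
    have := h4.trans h3.symm
    exact (pow_left_inj₀ (norm_nonneg _) (norm_nonneg _) two_ne_zero).1 this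
  rw [norm_zpow, norm_div, h5, div_self (norm_ne_zero_iff.2 (h.ne_zero hn.ne' h1)), one_zpow]

variable {V : ValuationSubring ℂ}

lemma EE_P1_q {n : ℕ} {H : ℤ[X]} (hn : 0 < n) (h : Flat n H n) {π : Finset ℕ} {ζ : ℕ → ℂ}
    (hζ : ∀ q ∈ π, ζ q ^ n = 1) {θ : ℂ} (hθ : θ ^ n = 1) {q : ℕ} (hq : q.Prime) (hqπ : q ∈ π)
    (hζq : ζ q ^ q = 1) (hqV : V.valuation (q : ℂ) < 1) : P1 V (EE H π ζ θ) := by
  obtain ⟨R, hR⟩ := h.exists_poly hn
  obtain ⟨m, k, hk, hmk⟩ := Nat.exists_eq_pow_mul_and_not_dvd hn.ne' q hq.ne_one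
  have hkey : ∀ η : ℂ, η ^ n = 1 → P1 V (aeval (η * ζ q) H / aeval η H) := fun η hη =>
    key hq hqV hmk hk H _ R hR hη hζq
  rw [EE, ← Finset.insert_erase hqπ, Finset.prod_powerset_insert (Finset.notMem_erase q π),
    ← Finset.prod_mul_distrib]
  refine P1_prod _ _ fun S hS => ?_
  have hS' := Finset.mem_powerset.1 hS
  have hqS : q ∉ S := fun hh => Finset.notMem_erase q π (hS' hh)
  have h1 := prod_pow_eq_one hζ (hS'.trans (Finset.erase_subset q π))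
  set ψ := ∏ q ∈ S, ζ q with hψ
  have h2 : (θ * ψ) ^ n = 1 := by rw [mul_pow, hθ, h1, one_mul]
  have h3 : (ψ * ζ q) ^ n = 1 := by rw [mul_pow, hζ q hqπ, h1, one_mul]
  have h4 : (θ * ψ * ζ q) ^ n = 1 := by rw [mul_pow, hζ q hqπ, h2, one_mul]
  rw [Finset.prod_insert hqS, Finset.card_insert_of_notMem hqS, ← hψ, pow_succ, mul_neg_one,
    zpow_neg, ← inv_zpow, ← mul_zpow]
  refine P1.zpow ?_ _
  have e1 : ζ q * ψ = ψ * ζ q := mul_comm _ _
  have e2 : θ * (ψ * ζ q) = θ * ψ * ζ q := (mul_assoc _ _ _).symm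
  rw [e1, e2]
  have n1 := h.ne_zero hn.ne' h1
  have n2 := h.ne_zero hn.ne' h2
  have n3 := h.ne_zero hn.ne' h3
  have n4 := h.ne_zero hn.ne' h4
  have e3 : aeval (θ * ψ) H / aeval ψ H * (aeval (θ * ψ * ζ q) H / aeval (ψ * ζ q) H)⁻¹ =
      (aeval (ψ * ζ q) H / aeval ψ H) / (aeval (θ * ψ * ζ q) H / aeval (θ * ψ) H) := by
    field_simp
  rw [e3]
  exact (hkey ψ h1).div (hkey _ h2)

lemma aeval_sub_lt {a b : ℂ} (ha : a ∈ V) (hb : b ∈ V) (hab : V.valuation (a - b) < 1)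
    (P : ℤ[X]) : V.valuation (aeval a P - aeval b P) < 1 := by
  have hp : ∀ i : ℕ, V.valuation (a ^ i - b ^ i) < 1 := by
    intro i
    induction i with
    | zero => simp
    | succ i ih =>
      have : a ^ (i + 1) - b ^ (i + 1) = a * (a ^ i - b ^ i) + b ^ i * (a - b) := by ring
      rw [this]
      exact val_add_lt (val_mul_lt ha ih) (val_mul_lt (V.toSubring.pow_mem hb _) hab)
  rw [aeval_eq_sum_range, aeval_eq_sum_range, ← Finset.sum_sub_distrib]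
  refine Finset.sum_induction _ (fun x => V.valuation x < 1) (fun _ _ => val_add_lt)
    (by simp) fun i _ => ?_
  rw [zsmul_eq_mul, zsmul_eq_mul, ← mul_sub]
  exact val_mul_lt (intCast_mem' _) (hp i)

section odd

variable {u : ℕ} {D : ℤ[X]}

/-- half of the value of `H = J - 2 D` -/
noncomputable def YY (u : ℕ) (D : ℤ[X]) (z : ℂ) : ℂ := aeval z (JJ (4 * u ^ 2) - 2 * D) / 2

lemma YY_eq (z : ℂ) : aeval z (JJ (4 * u ^ 2) - 2 * D) = 2 * YY u D z := by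
  rw [YY]; ring

lemma YY_one : YY u D 1 = 2 * u ^ 2 - aeval (1 : ℂ) D := by
  rw [YY, map_sub, JJ_one, map_mul]
  simp only [map_ofNat]
  push_cast
  ring

lemma YY_ne_one {z : ℂ} (hz : z ^ (4 * u ^ 2) = 1) (h1 : z ≠ 1) : YY u D z = - aeval z D := by
  rw [YY, map_sub, JJ_ne_one hz h1, map_mul]
  simp only [map_ofNat]
  ring

lemma two_mem : (2 : ℂ) ∈ V := by simp

lemma YY_mem (hu : 0 < u) {z : ℂ} (hz : z ^ (4 * u ^ 2) = 1) : YY u D z ∈ V := by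
  by_cases h1 : z = 1
  · rw [h1, YY_one]
    exact V.toSubring.sub_mem (V.toSubring.mul_mem two_mem (V.toSubring.pow_mem (natCast_mem' u) _))
      (aeval_mem V.one_mem D)
  · rw [YY_ne_one hz h1]
    exact V.neg_mem _ (aeval_mem (root_mem (by positivity) hz) D)

lemma YY_add_lt (h2 : V.valuation (2 : ℂ) < 1) {z : ℂ} (hz : z ^ (4 * u ^ 2) = 1) :
    V.valuation (YY u D z + aeval z D) < 1 := by
  by_cases h1 : z = 1
  · rw [h1, YY_one, sub_add_cancel, mul_comm]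
    exact val_mul_lt (V.toSubring.pow_mem (natCast_mem' u) _) h2
  · rw [YY_ne_one hz h1]
    simp

lemma YY_mul (h : Flat (4 * u ^ 2) (JJ (4 * u ^ 2) - 2 * D) (4 * u ^ 2)) {z : ℂ}
    (hz : z ^ (4 * u ^ 2) = 1) : YY u D z * YY u D z⁻¹ = u ^ 2 := by
  have := h z hz
  rw [YY_eq, YY_eq] at this
  push_cast at this
  linear_combination this / 4

lemma YY_val (hu : 0 < u) (h : Flat (4 * u ^ 2) (JJ (4 * u ^ 2) - 2 * D) (4 * u ^ 2))
    (huV : V.valuation (u : ℂ) = 1) {z : ℂ} (hz : z ^ (4 * u ^ 2) = 1) :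
    V.valuation (YY u D z) = 1 := by
  have h1 := congrArg V.valuation (YY_mul h hz)
  rw [map_mul, map_pow, huV, one_pow] at h1
  have h2 := val_le_one (V := V) (YY_mem (D := D) hu hz)
  have h3 := val_le_one (V := V) (YY_mem (D := D) hu (z := z⁻¹) (by rw [inv_pow, hz, inv_one]))
  by_contra hne
  have h4 : V.valuation (YY u D z) < 1 := lt_of_le_of_ne h2 hne
  have h5 : V.valuation (YY u D z) * V.valuation (YY u D z⁻¹) < 1 :=
    lt_of_le_of_lt (mul_le_of_le_one_right' h3) h4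
  rw [h1] at h5
  exact lt_irrefl _ h5

lemma EE_eq_YY (π : Finset ℕ) (ζ : ℕ → ℂ) (θ : ℂ) :
    EE (JJ (4 * u ^ 2) - 2 * D) π ζ θ = ∏ S ∈ π.powerset,
      (YY u D (θ * ∏ q ∈ S, ζ q) / YY u D (∏ q ∈ S, ζ q)) ^ ((-1 : ℤ) ^ S.card) := by
  rw [EE]
  refine Finset.prod_congr rfl fun S _ => ?_
  rw [YY_eq, YY_eq, mul_div_mul_left _ _ two_ne_zero]

lemma EE_val (hu : 0 < u) (h : Flat (4 * u ^ 2) (JJ (4 * u ^ 2) - 2 * D) (4 * u ^ 2))
    (huV : V.valuation (u : ℂ) = 1) {π : Finset ℕ} {ζ : ℕ → ℂ}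
    (hζ : ∀ q ∈ π, ζ q ^ (4 * u ^ 2) = 1) {θ : ℂ} (hθ : θ ^ (4 * u ^ 2) = 1) :
    V.valuation (EE (JJ (4 * u ^ 2) - 2 * D) π ζ θ) = 1 := by
  rw [EE_eq_YY, map_prod]
  refine Finset.prod_eq_one fun S hS => ?_
  have h1 := prod_pow_eq_one hζ (Finset.mem_powerset.1 hS)
  have h2 : (θ * ∏ q ∈ S, ζ q) ^ (4 * u ^ 2) = 1 := by rw [mul_pow, hθ, h1, one_mul]
  rw [map_zpow₀, map_div₀, YY_val hu h huV h1, YY_val hu h huV h2, div_one, one_zpow]

lemma val_u_of_two (hu : Odd u) (h2 : V.valuation (2 : ℂ) < 1) : V.valuation (u : ℂ) = 1 :=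
  val_nat_eq_one_of_coprime (a := 2) (Nat.coprime_two_left.2 hu) (by simpa using h2)

lemma pow_n_of_pow_four {θ : ℂ} (hθ : θ ^ 4 = 1) : θ ^ (4 * u ^ 2) = 1 := by
  rw [pow_mul, hθ, one_pow]

lemma EE_P1_two (hu : Odd u) (h : Flat (4 * u ^ 2) (JJ (4 * u ^ 2) - 2 * D) (4 * u ^ 2))
    (h2 : V.valuation (2 : ℂ) < 1) {π : Finset ℕ} {ζ : ℕ → ℂ}
    (hζ : ∀ q ∈ π, ζ q ^ (4 * u ^ 2) = 1) {θ : ℂ} (hθ : θ ^ 4 = 1) :
    P1 V (EE (JJ (4 * u ^ 2) - 2 * D) π ζ θ) := by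
  have hu0 : 0 < u := hu.pos
  have hθV : θ ∈ V := root_mem (by norm_num) hθ
  have hθ1 : V.valuation (θ - 1) < 1 := by
    by_contra hcon
    have e1 : V.valuation (θ - 1) = 1 :=
      le_antisymm (val_le_one (V.toSubring.sub_mem hθV V.one_mem)) (not_lt.1 hcon)
    have e2 : (θ - 1) ^ 4 = (1 - 2 * θ ^ 3 + (2 + 1) * θ ^ 2 - 2 * θ) * 2 := by
      linear_combination hθ
    have e3 : (1 - 2 * θ ^ 3 + (2 + 1) * θ ^ 2 - 2 * θ) ∈ V :=
      V.toSubring.sub_mem (V.toSubring.add_mem (V.toSubring.sub_mem V.one_mem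
        (V.toSubring.mul_mem two_mem (V.toSubring.pow_mem hθV _)))
        (V.toSubring.mul_mem (V.toSubring.add_mem two_mem V.one_mem) (V.toSubring.pow_mem hθV _)))
        (V.toSubring.mul_mem two_mem hθV)
    have e4 := val_mul_lt e3 h2
    rw [← e2, map_pow, e1, one_pow] at e4
    exact lt_irrefl _ e4
  rw [EE_eq_YY]
  refine P1_prod _ _ fun S hS => P1.zpow ?_ _
  have h1 := prod_pow_eq_one hζ (Finset.mem_powerset.1 hS)
  set ψ := ∏ q ∈ S, ζ q with hψ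
  have h3 : (θ * ψ) ^ (4 * u ^ 2) = 1 := by rw [mul_pow, pow_n_of_pow_four hθ, h1, one_mul]
  have hψV : ψ ∈ V := root_mem (by positivity) h1
  refine P1_div_of_sub (YY_val hu0 h (val_u_of_two hu h2) h1) ?_
  have e1 : YY u D (θ * ψ) - YY u D ψ = (YY u D (θ * ψ) + aeval (θ * ψ) D) +
      ((-1) * (YY u D ψ + aeval ψ D) + (-1) * (aeval (θ * ψ) D - aeval ψ D)) := by ring
  rw [e1]
  have hm1 : (-1 : ℂ) ∈ V := V.neg_mem _ V.one_mem
  refine val_add_lt (YY_add_lt h2 h3) (val_add_lt (val_mul_lt hm1 (YY_add_lt h2 h1))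
    (val_mul_lt hm1 (aeval_sub_lt (V.toSubring.mul_mem hθV hψV) hψV ?_ D)))
  have e2 : θ * ψ - ψ = ψ * (θ - 1) := by ring
  rw [e2]
  exact val_mul_lt hψV hθ1

/-- a natural number all of whose prime factors are units is a unit -/
lemma val_eq_one_of_primes {k : ℕ} (hk : k ≠ 0)
    (h : ∀ q : ℕ, q.Prime → q ∣ k → ¬ V.valuation (q : ℂ) < 1) : V.valuation (k : ℂ) = 1 := by
  induction k using Nat.recOnMul with
  | zero => exact absurd rfl hk
  | one => simp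
  | prime p hp =>
    exact le_antisymm (val_le_one (natCast_mem' p)) (not_lt.1 (h p hp dvd_rfl))
  | mul a b iha ihb =>
    have ha : a ≠ 0 := left_ne_zero_of_mul hk
    have hb : b ≠ 0 := right_ne_zero_of_mul hk
    rw [Nat.cast_mul, map_mul, iha ha fun q hq hqa => h q hq (hqa.mul_right b),
      ihb hb fun q hq hqb => h q hq (hqb.mul_left a), one_mul]

lemma EE_isIntegral (hu : 0 < u) (h : Flat (4 * u ^ 2) (JJ (4 * u ^ 2) - 2 * D) (4 * u ^ 2))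
    {ζ : ℕ → ℂ} (hζ : ∀ q ∈ u.primeFactors, ζ q ^ (4 * u ^ 2) = 1)
    (hζq : ∀ q ∈ u.primeFactors, ζ q ^ q = 1) {θ : ℂ} (hθ : θ ^ (4 * u ^ 2) = 1) :
    IsIntegral ℤ (EE (JJ (4 * u ^ 2) - 2 * D) u.primeFactors ζ θ) := by
  refine isIntegral_of_forall_mem fun V => ?_
  by_cases hc : ∃ q : ℕ, q.Prime ∧ q ∣ u ∧ V.valuation (q : ℂ) < 1
  · obtain ⟨q, hq, hqu, hqV⟩ := hc
    have hqπ : q ∈ u.primeFactors := Nat.mem_primeFactors.2 ⟨hq, hqu, hu.ne'⟩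
    exact (EE_P1_q (by positivity) h hζ hθ hq hqπ (hζq q hqπ) hqV).mem
  · have huV : V.valuation (u : ℂ) = 1 :=
      val_eq_one_of_primes hu.ne' fun q hq hqu hqV => hc ⟨q, hq, hqu, hqV⟩
    exact mem_of_val_le (EE_val hu h huV hζ hθ).le

/-- The alternating product is trivial. -/
lemma exists_EE_eq_one (hu : Odd u) (hu1 : 1 < u)
    (h : Flat (4 * u ^ 2) (JJ (4 * u ^ 2) - 2 * D) (4 * u ^ 2)) :
    ∃ ζ : ℕ → ℂ, (∀ q ∈ u.primeFactors, IsPrimitiveRoot (ζ q) q) ∧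
      ∀ θ : ℂ, θ ^ 4 = 1 → EE (JJ (4 * u ^ 2) - 2 * D) u.primeFactors ζ θ = 1 := by
  have hu0 : 0 < u := hu.pos
  set n := 4 * u ^ 2 with hn
  have hn0 : 0 < n := by positivity
  have : NeZero n := ⟨hn0.ne'⟩
  let K := CyclotomicField n ℚ
  obtain ⟨ωK, hωK⟩ : ∃ ωK : K, IsPrimitiveRoot ωK n :=
    (CyclotomicField.isCyclotomicExtension n ℚ).exists_isPrimitiveRoot rfl hn0.ne'
  let φ0 : K →+* ℂ := (IsAlgClosed.lift (R := ℚ) (S := K) (M := ℂ)).toRingHom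
  have hω : IsPrimitiveRoot (φ0 ωK) n := hωK.map_of_injective φ0.injective
  have hdiv : ∀ q ∈ u.primeFactors, q ∣ n := fun q hq =>
    Dvd.dvd.mul_left ((Nat.dvd_of_mem_primeFactors hq).pow two_ne_zero) 4
  have hprim : ∀ q ∈ u.primeFactors, IsPrimitiveRoot (φ0 (ωK ^ (n / q))) q := by
    intro q hq
    rw [map_pow]
    exact hω.pow hn0 (Nat.div_mul_cancel (hdiv q hq)).symm
  have hpow : ∀ (φ : K →+* ℂ) (j : ℕ), φ (ωK ^ j) ^ n = 1 := by
    intro φ j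
    rw [← map_pow, ← pow_mul, mul_comm, pow_mul, hωK.pow_eq_one, one_pow, map_one]
  refine ⟨fun q => φ0 (ωK ^ (n / q)), hprim, fun θ hθ => ?_⟩
  have hθn : θ ^ n = 1 := pow_n_of_pow_four hθ
  obtain ⟨j, -, hj⟩ := hω.eq_pow_of_pow_eq_one hθn
  have hθj : θ = φ0 (ωK ^ j) := by rw [map_pow, hj]
  let e : K := EE (JJ n - 2 * D) u.primeFactors (fun q => ωK ^ (n / q)) (ωK ^ j)
  have he : φ0 e = EE (JJ n - 2 * D) u.primeFactors (fun q => φ0 (ωK ^ (n / q))) θ := by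
    rw [hθj]; exact EE_map φ0 _ _ _ _
  have hint : IsIntegral ℤ (φ0 e) := by
    rw [he]
    exact EE_isIntegral hu0 h (fun q _ => hpow φ0 _) (fun q hq => (hprim q hq).pow_eq_one) hθn
  have hint' : IsIntegral ℤ e := (isIntegral_algHom_iff φ0.toIntAlgHom φ0.injective).1 hint
  obtain ⟨N, hN, heN⟩ := NumberField.Embeddings.pow_eq_one_of_norm_eq_one K ℂ hint' (by
    intro φ
    rw [EE_map φ]
    exact EE_norm hn0 h (fun q _ => hpow φ _) (hpow φ j))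
  have heN' : (φ0 e) ^ N = 1 := by rw [← map_pow, heN, map_one]
  rw [← he]
  obtain ⟨a, N', hN', rfl⟩ := Nat.exists_eq_two_pow_mul_odd hN.ne'
  obtain ⟨W, hW⟩ := exists_val 2 Nat.prime_two
  have hW' : W.valuation (2 : ℂ) < 1 := by simpa using hW
  have h1 : P1 W (φ0 e) := by
    rw [he]
    exact EE_P1_two hu h hW' (fun q _ => hpow φ0 _) hθ
  have h2 : (φ0 e) ^ (2 ^ a) = 1 :=
    eq_one_of_P1 (h1.pow _) (by rw [← pow_mul]; exact heN') (val_u_of_two hN' hW')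
  obtain ⟨q, hq⟩ : u.primeFactors.Nonempty := Nat.nonempty_primeFactors.2 hu1
  have hqp := Nat.prime_of_mem_primeFactors hq
  obtain ⟨V, hV⟩ := exists_val q hqp
  have h3 : P1 V (φ0 e) := by
    rw [he]
    exact EE_P1_q hn0 h (fun q _ => hpow φ0 _) hθn hqp hq (hprim q hq).pow_eq_one hV
  refine eq_one_of_P1 h3 h2 (val_nat_eq_one_of_coprime ?_ hV)
  refine Nat.Coprime.pow_right _ ?_
  exact Nat.coprime_two_right.2 (hu.of_dvd_nat (Nat.dvd_of_mem_primeFactors hq))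

end odd

/-- functions on the fourth roots of unity given by a polynomial over `V` -/
def Good (V : ValuationSubring ℂ) (f : ℂ → ℂ) : Prop :=
  ∃ a ∈ V, ∃ b ∈ V, ∃ c ∈ V, ∃ d ∈ V, ∀ θ : ℂ, θ ^ 4 = 1 → f θ = a + b * θ + c * θ ^ 2 + d * θ ^ 3

lemma Good_const {x : ℂ} (hx : x ∈ V) : Good V fun _ => x :=
  ⟨x, hx, 0, V.zero_mem, 0, V.zero_mem, 0, V.zero_mem, fun θ _ => by ring⟩

lemma Good_id : Good V fun θ => θ :=
  ⟨0, V.zero_mem, 1, V.one_mem, 0, V.zero_mem, 0, V.zero_mem, fun θ _ => by ring⟩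

lemma Good.congr {f g : ℂ → ℂ} (hf : Good V f) (h : ∀ θ : ℂ, θ ^ 4 = 1 → g θ = f θ) :
    Good V g := by
  obtain ⟨a, ha, b, hb, c, hc, d, hd, hf⟩ := hf
  exact ⟨a, ha, b, hb, c, hc, d, hd, fun θ hθ => (h θ hθ).trans (hf θ hθ)⟩

lemma Good.add {f g : ℂ → ℂ} (hf : Good V f) (hg : Good V g) : Good V fun θ => f θ + g θ := by
  obtain ⟨a, ha, b, hb, c, hc, d, hd, hf⟩ := hf
  obtain ⟨a', ha', b', hb', c', hc', d', hd', hg⟩ := hg
  refine ⟨a + a', V.add_mem _ _ ha ha', b + b', V.add_mem _ _ hb hb', c + c', V.add_mem _ _ hc hc',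
    d + d', V.add_mem _ _ hd hd', fun θ hθ => ?_⟩
  simp only [hf θ hθ, hg θ hθ]
  ring

lemma Good.mul {f g : ℂ → ℂ} (hf : Good V f) (hg : Good V g) : Good V fun θ => f θ * g θ := by
  obtain ⟨a, ha, b, hb, c, hc, d, hd, hf⟩ := hf
  obtain ⟨a', ha', b', hb', c', hc', d', hd', hg⟩ := hg
  have H : ∀ x₁ ∈ V, ∀ y₁ ∈ V, ∀ x₂ ∈ V, ∀ y₂ ∈ V, ∀ x₃ ∈ V, ∀ y₃ ∈ V, ∀ x₄ ∈ V, ∀ y₄ ∈ V,
      x₁ * y₁ + x₂ * y₂ + x₃ * y₃ + x₄ * y₄ ∈ V := by
    intro x₁ h₁ y₁ k₁ x₂ h₂ y₂ k₂ x₃ h₃ y₃ k₃ x₄ h₄ y₄ k₄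
    exact V.add_mem _ _ (V.add_mem _ _ (V.add_mem _ _ (V.mul_mem _ _ h₁ k₁) (V.mul_mem _ _ h₂ k₂))
      (V.mul_mem _ _ h₃ k₃)) (V.mul_mem _ _ h₄ k₄)
  refine ⟨_, H a ha a' ha' b hb d' hd' c hc c' hc' d hd b' hb',
    _, H a ha b' hb' b hb a' ha' c hc d' hd' d hd c' hc',
    _, H a ha c' hc' b hb b' hb' c hc a' ha' d hd d' hd',
    _, H a ha d' hd' b hb c' hc' c hc b' hb' d hd a' ha', fun θ hθ => ?_⟩
  simp only [hf θ hθ, hg θ hθ]
  linear_combination (b * d' + c * c' + d * b' + (c * d' + d * c') * θ + d * d' * θ ^ 2) * hθ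

lemma Good.pow {f : ℂ → ℂ} (hf : Good V f) (k : ℕ) : Good V fun θ => f θ ^ k := by
  induction k with
  | zero => simpa using Good_const V.one_mem
  | succ k ih => simpa [pow_succ] using ih.mul hf

lemma Good_prod {ι : Type*} (s : Finset ι) (f : ι → ℂ → ℂ) (h : ∀ i ∈ s, Good V (f i)) :
    Good V fun θ => ∏ i ∈ s, f i θ := by
  classical
  induction s using Finset.induction_on with
  | empty => simpa using Good_const V.one_mem
  | insert a s ha ih =>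
    simp only [Finset.prod_insert ha]
    exact (h a (Finset.mem_insert_self a s)).mul (ih fun i hi => h i (Finset.mem_insert_of_mem hi))

lemma Good.aeval {f : ℂ → ℂ} (hf : Good V f) (P : ℤ[X]) : Good V fun θ => aeval (f θ) P := by
  induction P using Polynomial.induction_on' with
  | add p q hp hq => simpa using hp.add hq
  | monomial k a =>
    simp only [aeval_monomial]
    exact (Good_const (by simp)).mul (hf.pow k)

lemma Good.sum_four {f : ℂ → ℂ} (hf : Good V f) :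
    ∃ a ∈ V, f 1 + f Complex.I + f (-1) + f (-Complex.I) = 4 * a := by
  obtain ⟨a, ha, b, hb, c, hc, d, hd, hf⟩ := hf
  refine ⟨a, ha, ?_⟩
  have hI : Complex.I ^ 4 = 1 := Complex.I_pow_four
  rw [hf 1 (by norm_num), hf _ hI, hf (-1) (by norm_num), hf (-Complex.I) (by
    rw [neg_pow, hI]; norm_num)]
  linear_combination (2 * c) * Complex.I_sq

lemma theta_psi_ne_one {π : Finset ℕ} (hπ : ∀ q ∈ π, q.Prime ∧ Odd q) {ζ : ℕ → ℂ}
    (hζ : ∀ q ∈ π, IsPrimitiveRoot (ζ q) q) {S : Finset ℕ} (hS : S ⊆ π) (hne : S ≠ ∅) {θ : ℂ}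
    (hθ : θ ^ 4 = 1) : θ * ∏ q ∈ S, ζ q ≠ 1 := by
  intro h1
  obtain ⟨p, hp⟩ := Finset.nonempty_iff_ne_empty.2 hne
  have h2 : (θ * ∏ q ∈ S, ζ q) ^ (4 * ∏ q ∈ S.erase p, q) = ζ p ^ (4 * ∏ q ∈ S.erase p, q) := by
    rw [mul_pow, pow_mul θ, hθ, one_pow, one_mul, ← Finset.mul_prod_erase S ζ hp, mul_pow,
      ← Finset.prod_pow]
    rw [Finset.prod_eq_one (f := fun q => ζ q ^ (4 * ∏ q ∈ S.erase p, q)), mul_one]
    intro q hq
    rw [(hζ q (hS (Finset.mem_of_mem_erase hq))).pow_eq_one_iff_dvd]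
    exact Dvd.dvd.mul_left (Finset.dvd_prod_of_mem _ hq) 4
  rw [h1, one_pow, eq_comm, (hζ p (hS hp)).pow_eq_one_iff_dvd] at h2
  obtain ⟨hpp, hpo⟩ := hπ p (hS hp)
  rcases (Nat.Prime.dvd_mul hpp).1 h2 with h3 | h3
  · have h4 : p ∣ 2 := hpp.dvd_of_dvd_pow (n := 2) (by simpa using h3)
    have h5 : p = 2 := (Nat.prime_dvd_prime_iff_eq hpp Nat.prime_two).1 h4
    rw [h5] at hpo
    exact absurd hpo (by decide)
  · obtain ⟨q, hq, hpq⟩ := (Prime.dvd_finsetProd_iff hpp.prime _).1 h3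
    have h5 : p = q :=
      (Nat.prime_dvd_prime_iff_eq hpp (hπ q (hS (Finset.mem_of_mem_erase hq))).1).1 hpq
    exact (Finset.ne_of_mem_erase hq) h5.symm

/-- The case `n = 4 u ^ 2` with `u > 1` odd. -/
theorem odd_case {u : ℕ} {D : ℤ[X]} (hu : Odd u) (hu1 : 1 < u)
    (h : Flat (4 * u ^ 2) (JJ (4 * u ^ 2) - 2 * D) (4 * u ^ 2)) : False := by
  have hu0 : 0 < u := hu.pos
  obtain ⟨ζ, hζ, hE⟩ := exists_EE_eq_one hu hu1 h
  obtain ⟨W, hW⟩ := exists_val 2 Nat.prime_two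
  have hW' : W.valuation (2 : ℂ) < 1 := by simpa using hW
  have huW : W.valuation (u : ℂ) = 1 := val_u_of_two hu hW'
  have hπ : ∀ q ∈ u.primeFactors, q.Prime ∧ Odd q := fun q hq =>
    ⟨Nat.prime_of_mem_primeFactors hq, hu.of_dvd_nat (Nat.dvd_of_mem_primeFactors hq)⟩
  have hζn : ∀ q ∈ u.primeFactors, ζ q ^ (4 * u ^ 2) = 1 := fun q hq =>
    ((hζ q hq).pow_eq_one_iff_dvd _).2
      (Dvd.dvd.mul_left ((Nat.dvd_of_mem_primeFactors hq).pow two_ne_zero) 4)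
  have hu' : (u : ℂ) ≠ 0 := by exact_mod_cast hu0.ne'
  have hYne : ∀ z : ℂ, z ^ (4 * u ^ 2) = 1 → YY u D z ≠ 0 := by
    intro z hz h0
    have := YY_val hu0 h huW hz
    rw [h0, map_zero] at this
    exact zero_ne_one this
  have hinv : ∀ x : ℂ, W.valuation x = 1 → x⁻¹ ∈ W := fun x hx =>
    mem_of_val_le (by rw [map_inv₀, hx, inv_one])
  have hG : Good W fun θ => ∏ S ∈ u.primeFactors.powerset.erase ∅,
      ((YY u D (θ * ∏ q ∈ S, ζ q) / YY u D (∏ q ∈ S, ζ q)) ^ ((-1 : ℤ) ^ S.card))⁻¹ := by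
    refine Good_prod _ (fun S θ =>
      ((YY u D (θ * ∏ q ∈ S, ζ q) / YY u D (∏ q ∈ S, ζ q)) ^ ((-1 : ℤ) ^ S.card))⁻¹) fun S hS => ?_
    have hS1 := Finset.mem_powerset.1 (Finset.mem_of_mem_erase hS)
    have hS2 := Finset.ne_of_mem_erase hS
    have h1 := prod_pow_eq_one hζn hS1
    have hne := fun θ (hθ : θ ^ 4 = 1) => theta_psi_ne_one hπ hζ hS1 hS2 hθ
    set ψ := ∏ q ∈ S, ζ q with hψ
    have h3 : ∀ θ : ℂ, θ ^ 4 = 1 → (θ * ψ) ^ (4 * u ^ 2) = 1 := fun θ hθ => by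
      rw [mul_pow, pow_n_of_pow_four hθ, h1, one_mul]
    have hψW : ψ ∈ W := root_mem (by positivity) h1
    have hψW' : ψ⁻¹ ∈ W := root_mem (n := 4 * u ^ 2) (by positivity) (by rw [inv_pow, h1, inv_one])
    have hm1 : (-1 : ℂ) ∈ W := W.neg_mem _ W.one_mem
    have g1 : Good W fun θ => YY u D (θ * ψ) := by
      refine ((Good_const hm1).mul ((Good_id.mul (Good_const hψW)).aeval D)).congr fun θ hθ => ?_
      rw [YY_ne_one (h3 θ hθ) (hne θ hθ)]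
      ring
    have g2 : Good W fun θ => (YY u D (θ * ψ))⁻¹ := by
      refine (((Good_const hm1).mul (((Good_id.pow 3).mul (Good_const hψW')).aeval D)).mul
        (Good_const (hinv ((u : ℂ) ^ 2) (by rw [map_pow, huW, one_pow])))).congr fun θ hθ => ?_
      have e1 : θ ^ 3 * ψ⁻¹ = (θ * ψ)⁻¹ := by
        rw [mul_inv]
        congr 1
        exact eq_inv_of_mul_eq_one_left (by rw [← pow_succ]; exact hθ)
      have e2 := YY_mul h (h3 θ hθ)
      rw [YY_ne_one (z := (θ * ψ)⁻¹) (by rw [inv_pow, h3 θ hθ, inv_one])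
        (by rw [Ne, inv_eq_one]; exact hne θ hθ)] at e2
      simp only [e1]
      have e3 := hYne _ (h3 θ hθ)
      generalize aeval (θ * ψ)⁻¹ D = y at e2 ⊢
      field_simp
      linear_combination (-1 : ℂ) * e2
    rcases neg_one_pow_eq_or ℤ S.card with hc | hc
    · rw [hc]
      refine (g2.mul (Good_const (YY_mem (D := D) hu0 h1))).congr fun θ _ => ?_
      rw [zpow_one, inv_div, div_eq_mul_inv, mul_comm]
    · rw [hc]
      refine (g1.mul (Good_const (hinv _ (YY_val hu0 h huW h1)))).congr fun θ _ => ?_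
      rw [zpow_neg, zpow_one, inv_inv, div_eq_mul_inv]
  have hG2 : Good W fun θ => YY u D θ := by
    refine (hG.mul (Good_const (YY_mem (D := D) hu0 (one_pow _)))).congr fun θ hθ => ?_
    have e1 := hE θ hθ
    rw [EE_eq_YY, ← Finset.mul_prod_erase _ _ (Finset.empty_mem_powerset _)] at e1
    simp only [Finset.prod_empty, mul_one, Finset.card_empty, pow_zero, zpow_one] at e1
    rw [Finset.prod_inv_distrib, ← eq_inv_of_mul_eq_one_left e1,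
      div_mul_cancel₀ _ (hYne 1 (one_pow _))]
  obtain ⟨a, ha, hsum⟩ := hG2.sum_four
  obtain ⟨b, hb, hsum'⟩ := (Good_id (V := W).aeval D).sum_four
  have hI : Complex.I ^ 4 = 1 := Complex.I_pow_four
  have hI' : (-Complex.I) ^ 4 = 1 := by rw [neg_pow, hI]; norm_num
  have n1 : Complex.I ≠ 1 := by
    intro hh
    have := congrArg Complex.re hh
    simp at this
  have n2 : -Complex.I ≠ 1 := by
    intro hh
    have := congrArg Complex.re hh
    simp at this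
  rw [YY_one, YY_ne_one (pow_n_of_pow_four hI) n1,
    YY_ne_one (pow_n_of_pow_four (θ := -1) (by norm_num)) (by norm_num),
    YY_ne_one (pow_n_of_pow_four hI') n2] at hsum
  have e : (u : ℂ) ^ 2 = (a + b) * 2 := by
    linear_combination (hsum + hsum') / 2
  have := val_mul_lt (W.add_mem _ _ ha hb) hW'
  rw [← e, map_pow, huW, one_pow] at this
  exact lt_irrefl _ this

end Vale.Agent.P033
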