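import Mathlib

open Polynomial

namespace Vale.Agent.P033

/-- `z` is congruent to `1` modulo the maximal ideal of `V`. -/
def P1 (V : ValuationSubring ℂ) (z : ℂ) : Prop := V.valuation (z - 1) < 1

variable {V : ValuationSubring ℂ}

lemma val_le_one {x : ℂ} (hx : x ∈ V) : V.valuation x ≤ 1 := (V.valuation_le_one_iff x).2 hx

lemma mem_of_val_le {x : ℂ} (hx : V.valuation x ≤ 1) : x ∈ V := (V.valuation_le_one_iff x).1 hx

lemma val_mul_lt {x y : ℂ} (hx : x ∈ V) (hy : V.valuation y < 1) : V.valuation (x * y) < 1 := by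
  rw [map_mul]
  exact lt_of_le_of_lt (mul_le_of_le_one_left' (val_le_one hx)) hy

lemma val_add_lt {x y : ℂ} (hx : V.valuation x < 1) (hy : V.valuation y < 1) :
    V.valuation (x + y) < 1 := V.valuation.map_add_lt hx hy

lemma P1.val_eq {z : ℂ} (h : P1 V z) : V.valuation z = 1 := by
  have := V.valuation.map_one_add_of_lt h
  simpa using this

lemma P1.mem {z : ℂ} (h : P1 V z) : z ∈ V := mem_of_val_le h.val_eq.le

lemma P1.ne_zero {z : ℂ} (h : P1 V z) : z ≠ 0 := by
  intro h0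
  have := h.val_eq
  rw [h0, map_zero] at this
  exact zero_ne_one this

lemma P1_one : P1 V 1 := by simp [P1]

lemma P1.mul {z w : ℂ} (hz : P1 V z) (hw : P1 V w) : P1 V (z * w) := by
  have : z * w - 1 = z * (w - 1) + (z - 1) := by ring
  unfold P1
  rw [this]
  exact val_add_lt (val_mul_lt hz.mem hw) hz

lemma P1.inv {z : ℂ} (hz : P1 V z) : P1 V z⁻¹ := by
  have h0 := hz.ne_zero
  have : z⁻¹ - 1 = (-z⁻¹) * (z - 1) := by field_simp; ring
  unfold P1
  rw [this]
  refine val_mul_lt (V.neg_mem _ (mem_of_val_le ?_)) hz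
  rw [map_inv₀, hz.val_eq, inv_one]

lemma P1.div {z w : ℂ} (hz : P1 V z) (hw : P1 V w) : P1 V (z / w) := by
  rw [div_eq_mul_inv]; exact hz.mul hw.inv

lemma P1.pow {z : ℂ} (hz : P1 V z) (k : ℕ) : P1 V (z ^ k) := by
  induction k with
  | zero => simpa using P1_one
  | succ k ih => rw [pow_succ]; exact ih.mul hz

lemma P1.zpow {z : ℂ} (hz : P1 V z) (k : ℤ) : P1 V (z ^ k) := by
  rcases k with k | k
  · simpa using hz.pow k
  · rw [zpow_negSucc]; exact (hz.pow _).inv

lemma P1_prod {ι : Type*} (s : Finset ι) (f : ι → ℂ) (h : ∀ i ∈ s, P1 V (f i)) :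
    P1 V (∏ i ∈ s, f i) :=
  Finset.prod_induction f (P1 V) (fun _ _ => P1.mul) P1_one h

/-- If `a ≡ b` modulo the maximal ideal and `b` is a unit then `a / b ≡ 1`. -/
lemma P1_div_of_sub {a b : ℂ} (hb : V.valuation b = 1) (h : V.valuation (a - b) < 1) :
    P1 V (a / b) := by
  have h0 : b ≠ 0 := by
    intro h0
    rw [h0, map_zero] at hb
    exact zero_ne_one hb
  have : a / b - 1 = b⁻¹ * (a - b) := by field_simp
  unfold P1
  rw [this]
  refine val_mul_lt (mem_of_val_le ?_) h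
  rw [map_inv₀, hb, inv_one]

lemma root_mem {z : ℂ} {n : ℕ} (hn : 0 < n) (hz : z ^ n = 1) : z ∈ V := by
  rcases V.mem_or_inv_mem z with h | h
  · exact h
  · have h0 : z ≠ 0 := by
      intro h0
      rw [h0, zero_pow hn.ne'] at hz
      exact zero_ne_one hz
    have : z = (z⁻¹) ^ (n - 1) := by
      obtain ⟨k, rfl⟩ : ∃ k, n = k + 1 := ⟨n - 1, by omega⟩
      rw [Nat.add_sub_cancel, inv_pow]
      rw [pow_succ] at hz
      exact (inv_eq_of_mul_eq_one_right hz).symm
    rw [this]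
    exact V.toSubring.pow_mem h _

lemma aeval_mem {z : ℂ} (hz : z ∈ V) (P : ℤ[X]) : aeval z P ∈ V := by
  rw [aeval_eq_sum_range]
  refine V.toSubring.sum_mem fun i _ => ?_
  rw [zsmul_eq_mul]
  exact V.toSubring.mul_mem (intCast_mem V.toSubring _) (V.toSubring.pow_mem hz _)

lemma natCast_mem' (k : ℕ) : (k : ℂ) ∈ V := natCast_mem V.toSubring k

lemma intCast_mem' (k : ℤ) : (k : ℂ) ∈ V := intCast_mem V.toSubring k

/-- coprime integers cannot both lie in the maximal ideal -/
lemma val_eq_one_of_coprime {a b : ℤ} (h : IsCoprime a b) (ha : V.valuation (a : ℂ) < 1) :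
    V.valuation (b : ℂ) = 1 := by
  by_contra hb
  have hb' : V.valuation (b : ℂ) < 1 := lt_of_le_of_ne (val_le_one (intCast_mem' b)) hb
  obtain ⟨x, y, hxy⟩ := h
  have h1 : (x : ℂ) * a + (y : ℂ) * b = 1 := by exact_mod_cast hxy
  have := val_add_lt (val_mul_lt (intCast_mem' (V := V) x) ha) (val_mul_lt (intCast_mem' y) hb')
  rw [h1, map_one] at this
  exact lt_irrefl _ this

lemma val_nat_eq_one_of_coprime {a b : ℕ} (h : Nat.Coprime a b) (ha : V.valuation (a : ℂ) < 1) :
    V.valuation (b : ℂ) = 1 := by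
  have := val_eq_one_of_coprime (V := V) (Nat.isCoprime_iff_coprime.2 h) (by simpa using ha)
  simpa using this

/-- a root of unity congruent to one, of order dividing a unit, is one -/
lemma eq_one_of_P1 {e : ℂ} {M : ℕ} (he : P1 V e) (hM : e ^ M = 1)
    (hv : V.valuation (M : ℂ) = 1) : e = 1 := by
  by_contra hne
  have h0 : ∑ i ∈ Finset.range M, e ^ i = 0 := by
    have := mul_geom_sum e M
    rw [hM, sub_self] at this
    exact (mul_eq_zero.1 this).resolve_left (sub_ne_zero.2 hne)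
  have h1 : V.valuation (∑ i ∈ Finset.range M, (e ^ i - 1)) < 1 := by
    refine Finset.sum_induction _ (fun x => V.valuation x < 1) (fun _ _ => val_add_lt)
      (by simp) fun i _ => he.pow i
  rw [Finset.sum_sub_distrib, h0] at h1
  simp [hv] at h1

/-- existence of a valuation subring above a prime -/
lemma exists_val (p : ℕ) (hp : p.Prime) : ∃ V : ValuationSubring ℂ, V.valuation (p : ℂ) < 1 := by
  let A : Subring ℂ := ⊥
  let I : Ideal A := Ideal.span {(p : A)}
  have hI : I ≠ ⊤ := by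
    intro h
    rw [Ideal.span_singleton_eq_top, isUnit_iff_exists_inv] at h
    obtain ⟨⟨b, hb⟩, hb'⟩ := h
    obtain ⟨k, rfl⟩ := Subring.mem_bot.1 hb
    have h1 : (p : ℂ) * (k : ℂ) = 1 := by
      have := congrArg (Subtype.val) hb'
      simpa using this
    have h2 : (p : ℤ) * k = 1 := by exact_mod_cast h1
    have h3 : (p : ℤ) ∣ 1 := ⟨k, h2.symm⟩
    have h4 : p ∣ 1 := by exact_mod_cast h3
    exact hp.one_lt.ne' (Nat.dvd_one.1 h4)
  obtain ⟨B, _, hB⟩ := Ideal.image_subset_nonunits_valuationSubring I hI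
  refine ⟨B, ?_⟩
  have := hB ⟨(p : A), Ideal.subset_span rfl, rfl⟩
  simpa [ValuationSubring.mem_nonunits_iff] using this

/-- valuative criterion of integrality -/
lemma isIntegral_of_forall_mem {x : ℂ} (h : ∀ V : ValuationSubring ℂ, x ∈ V) :
    IsIntegral ℤ x := by
  by_contra hx
  let R : Subring ℂ := (integralClosure ℤ ℂ).toSubring
  have : IsIntegrallyClosedIn R ℂ := inferInstanceAs (IsIntegrallyClosedIn (integralClosure ℤ ℂ) ℂ)
  obtain ⟨V, _, hV⟩ := Subring.exists_le_valuationSubring_of_isIntegrallyClosedIn (R := R) (x := x) hx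
  exact hV (h V)

lemma binom_aux {A : Type*} [CommRing A] {q : ℕ} (hq : q.Prime) (t b a : A)
    (ht : t ^ (q - 1) = q * b) (m : ℕ) :
    ∃ c : A, (1 + a * t) ^ (q ^ m) = 1 + (q : A) ^ m * t * c := by
  obtain ⟨j, rfl⟩ : ∃ j, q = j + 2 := ⟨q - 2, by have := hq.two_le; omega⟩
  have ht' : t ^ (j + 1) = ((j + 2 : ℕ) : A) * b := ht
  induction m with
  | zero => exact ⟨a, by simp [mul_comm]⟩
  | succ m ih =>
    obtain ⟨c, hc⟩ := ih
    rw [pow_succ, pow_mul, hc]
    obtain ⟨r, hr⟩ := exists_add_pow_prime_eq hq (1 : A) (((j + 2 : ℕ) : A) ^ m * t * c)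
    rw [hr]
    set Q : A := ((j + 2 : ℕ) : A) with hQ
    refine ⟨(Q ^ m) ^ (j + 1) * c ^ (j + 2) * b + c * r, ?_⟩
    have : (Q ^ m * t * c) ^ (j + 2) = Q ^ m * (Q ^ m) ^ (j + 1) * t * t ^ (j + 1) * c ^ (j + 2) := by
      ring
    rw [this, ht']
    ring

/-- The key lemma. -/
theorem key {q m k n : ℕ} (hq : q.Prime) (hqV : V.valuation (q : ℂ) < 1) (hn : n = q ^ m * k)
    (hk : ¬ q ∣ k) (H G R : ℤ[X]) (hHG : H * G = C (n : ℤ) + (X ^ n - 1) * R) {η ζ : ℂ}
    (hη : η ^ n = 1) (hζ : ζ ^ q = 1) : P1 V (aeval (η * ζ) H / aeval η H) := by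
  have hk0 : k ≠ 0 := by rintro rfl; exact hk (dvd_zero q)
  have hn0 : 0 < n := by rw [hn]; exact Nat.pos_of_ne_zero (mul_ne_zero (pow_ne_zero _ hq.ne_zero) hk0)
  have hev : ∀ x : ℂ, aeval x H * aeval x G = n + (x ^ n - 1) * aeval x R := by
    intro x
    have := congrArg (aeval x) hHG
    simpa using this
  have hHη : aeval η H ≠ 0 := by
    intro h0
    have := hev η
    rw [h0, hη, zero_mul, sub_self, zero_mul, add_zero] at this
    exact hn0.ne' (by exact_mod_cast this.symm)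
  by_cases hζ1 : ζ = 1
  · rw [hζ1, mul_one, div_self hHη]; exact P1_one
  have hηV : η ∈ V := root_mem hn0 hη
  have hζV : ζ ∈ V := root_mem hq.pos hζ
  have hη0 : η ≠ 0 := by
    intro h0
    rw [h0, zero_pow hn0.ne'] at hη
    exact zero_ne_one hη
  have ht0 : ζ - 1 ≠ 0 := sub_ne_zero.2 hζ1
  let t : V := ⟨ζ - 1, V.toSubring.sub_mem hζV V.one_mem⟩
  obtain ⟨b, hb⟩ : ∃ b : V, t ^ (q - 1) = q * b := by
    obtain ⟨r, hr⟩ := exists_add_pow_prime_eq hq (1 : V) t
    refine ⟨-r, ?_⟩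
    have h1 : (1 + t) ^ q = 1 := by
      apply Subtype.ext
      simp [t, hζ]
    have ht : t ≠ 0 := by
      intro h
      exact ht0 (congrArg Subtype.val h)
    apply mul_left_cancel₀ ht
    have h2 : t * t ^ (q - 1) = t ^ q := by
      rw [← pow_succ']
      congr 1
      have := hq.pos
      omega
    rw [h2]
    rw [h1] at hr
    linear_combination (-1 : V) * hr
  have htv : V.valuation (ζ - 1) < 1 := by
    by_contra hcon
    have h1 : V.valuation (ζ - 1) = 1 := le_antisymm (val_le_one t.2) (not_lt.1 hcon)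
    have h2 : (ζ - 1) ^ (q - 1) = (b : ℂ) * q := by
      have := congrArg Subtype.val hb
      simpa [t, mul_comm] using this
    have h3 := val_mul_lt b.2 hqV
    rw [← h2, map_pow, h1, one_pow] at h3
    exact lt_irrefl _ h3
  have hsp : (H.map (algebraMap ℤ ℂ)).Splits := IsAlgClosed.splits _
  have hlc : algebraMap ℤ ℂ H.leadingCoeff ≠ 0 := by
    intro h0
    apply hHη
    rw [← eval_map_algebraMap, hsp.eval_eq_prod_roots, leadingCoeff_map_of_injective
      (RingHom.injective_int _), h0, zero_mul]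
  rw [← eval_map_algebraMap, ← eval_map_algebraMap, hsp.eval_eq_prod_roots, hsp.eval_eq_prod_roots,
    leadingCoeff_map_of_injective (RingHom.injective_int _), mul_div_mul_left _ _ hlc,
    ← Multiset.prod_map_div]
  refine Multiset.prod_induction (P1 V) _ (fun _ _ => P1.mul) P1_one ?_
  intro z hz
  obtain ⟨r, hr, rfl⟩ := Multiset.mem_map.1 hz
  have hr0 : aeval r H = 0 := by
    have := (mem_roots'.1 hr).2
    rwa [IsRoot.def, eval_map_algebraMap] at this
  have hηr : η - r ≠ 0 := by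
    intro h
    rw [sub_eq_zero] at h
    exact hHη (h ▸ hr0)
  by_contra hcon
  have h1 : (η * ζ - r) / (η - r) - 1 = ((η - r) / (η * (ζ - 1)))⁻¹ := by
    field_simp
    ring
  unfold P1 at hcon
  rw [h1, ← ValuationSubring.mem_nonunits_iff, ValuationSubring.inv_mem_nonunits_iff] at hcon
  push Not at hcon
  let a : V := ⟨(η - r) / (η * (ζ - 1)), hcon.2⟩
  obtain ⟨c, hc⟩ := binom_aux hq t b (-a) hb m
  have hreq : r = η * ((1 + (-a) * t : V) : ℂ) := by
    simp only [a, t]
    push_cast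
    field_simp
    ring
  have hrV : r ∈ V := by
    rw [hreq]
    exact V.toSubring.mul_mem hηV (Subtype.prop _)
  obtain ⟨c', hc'⟩ : ((1 : V) + (q : V) ^ m * t * c) - 1 ∣ (1 + (q : V) ^ m * t * c) ^ k - 1 ^ k :=
    sub_dvd_pow_sub_pow _ _ k
  have hrn : r ^ n - 1 = (q : ℂ) ^ m * (ζ - 1) * c * c' := by
    rw [hreq, mul_pow, hη, one_mul, hn, pow_mul]
    have h2 := congrArg Subtype.val hc
    have h3 := congrArg Subtype.val hc'
    push_cast at h2 h3 ⊢
    rw [h2]
    simp only [t] at h3 ⊢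
    linear_combination h3
  have h4 := hev r
  rw [hr0, zero_mul, hrn, hn] at h4
  have hq0 : (q : ℂ) ^ m ≠ 0 := pow_ne_zero _ (by exact_mod_cast hq.ne_zero)
  have h5 : (k : ℂ) = (-(c * c' * aeval r R)) * (ζ - 1) := by
    apply mul_left_cancel₀ hq0
    push_cast at h4
    linear_combination (-1 : ℂ) * h4
  have h6 : V.valuation (k : ℂ) < 1 := by
    rw [h5]
    exact val_mul_lt (V.neg_mem _ (V.toSubring.mul_mem (V.toSubring.mul_mem c.2 c'.2)
      (aeval_mem hrV R))) htv
  have h7 := val_nat_eq_one_of_coprime ((Nat.Prime.coprime_iff_not_dvd hq).2 hk) hqV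
  rw [h7] at h6
  exact lt_irrefl _ h6

/-- an integer polynomial vanishing at all complex `N`-th roots of unity is divisible by
`X ^ N - 1` -/
lemma dvd_of_vanish {N : ℕ} (hN : 0 < N) (P : ℤ[X]) (h : ∀ z : ℂ, z ^ N = 1 → aeval z P = 0) :
    ∃ R : ℤ[X], P = (X ^ N - 1) * R := by
  have hm : (X ^ N - 1 : ℤ[X]).Monic := by
    simpa using monic_X_pow_sub_C (1 : ℤ) hN.ne'
  have hdeg : (X ^ N - 1 : ℤ[X]).natDegree = N := by
    simpa using natDegree_X_pow_sub_C (R := ℤ) (n := N) (r := 1)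
  have hne : (X ^ N - 1 : ℤ[X]) ≠ 1 := by
    intro h1
    rw [h1] at hdeg
    simp at hdeg
    omega
  have h1 := modByMonic_add_div P (X ^ N - 1)
  have h2 : (P %ₘ (X ^ N - 1)).map (algebraMap ℤ ℂ) = 0 := by
    apply eq_zero_of_natDegree_lt_card_of_eval_eq_zero' _ (nthRootsFinset N (1 : ℂ))
    · intro z hz
      rw [mem_nthRootsFinset hN] at hz
      have h3 := congrArg (aeval z) h1
      rw [h z hz] at h3
      rw [eval_map_algebraMap]
      simpa [hz] using h3
    · rw [(Complex.isPrimitiveRoot_exp N hN.ne').card_nthRootsFinset]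
      refine lt_of_le_of_lt natDegree_map_le ?_
      have := natDegree_modByMonic_lt P hm hne
      rwa [hdeg] at this
  have h4 : P %ₘ (X ^ N - 1) = 0 :=
    (Polynomial.map_eq_zero_iff (RingHom.injective_int _)).1 h2
  rw [h4, zero_add] at h1
  exact ⟨_, h1.symm⟩

end Vale.Agent.P033
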